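import Vale.Agent.P184.Eigen

/-!
P184: vanishing of trace coefficients of idempotents over the absolutely summable group algebra
at classes of undistorted elements and of elements with an eigenvalue off the unit circle, for
arbitrary groups; linear groups in positive characteristic.
-/

namespace Vale.Agent.Results.P184.TraceVanishing

open Vale.Agent.P184

universe u v

/-- For every group and every idempotent matrix: the trace coefficient vanishes at every class
`g` satisfying one of the four conditions, at every `g` which some matrix representation over an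
algebraically closed normed field maps to a matrix with an eigenvalue of norm different from one,
or over some field to a matrix with an eigenvalue transcendental over a subfield; it vanishes
outside the classes meeting one finitely generated subgroup. In a linear group over a field of
positive characteristic it vanishes at every class of elements of infinite order, and the
property holds if such a group is torsion-free or has locally finitely many torsion classes. -/
theorem result : ∀ (G : Type u) [Group G],
    (∀ g : G, LipschitzHom g ∨ PolynomialHom g ∨ Undistorted g ∨ VirtualHom g →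
      TraceVanishes g) ∧
    (∀ (Ω : Type v) [NormedField Ω] [IsAlgClosed Ω] (d : ℕ)
      (ρ : G →* Matrix (Fin d) (Fin d) Ω) (g : G) (a : Ω),
      (ρ g).charpoly.IsRoot a → ‖a‖ ≠ 1 → TraceVanishes g) ∧
    (∀ (k : Type) (E : Type v) [Field k] [Field E] [Algebra k E] (d : ℕ)
      (ρ : G →* Matrix (Fin d) (Fin d) E) (g : G) (a : E),
      (ρ g).charpoly.IsRoot a → Transcendental k a → TraceVanishes g) ∧
    (∀ (K : Type v) [Field K] (p : ℕ), p.Prime → CharP K p → ∀ (d : ℕ)
      (ρ : G →* Matrix (Fin d) (Fin d) K), Function.Injective ρ →
      (∀ g : G, ¬ IsOfFinOrder g → TraceVanishes g) ∧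
      ((∀ g : G, IsOfFinOrder g → g = 1) → BassProperty G) ∧
      ((∀ S : Finset G, ∃ F : Finset G, ∀ h ∈ Subgroup.closure (S : Set G), IsOfFinOrder h →
        ∃ x ∈ F, IsConj x h) → BassProperty G)) ∧
    (∀ (q : ℕ) (e : Fin q → Fin q → G → ℂ), IsIdem e → ∃ S : Finset G, ∀ g : G,
      (∀ h ∈ Subgroup.closure (S : Set G), ¬ IsConj g h) → hsTrace e g = 0) ∧
    ((∀ S : Finset G, ∃ F : Finset G, ∀ h ∈ Subgroup.closure (S : Set G), IsOfFinOrder h →
        ∃ x ∈ F, IsConj x h) →
      (∀ g : G, ¬ IsOfFinOrder g →
        LipschitzHom g ∨ PolynomialHom g ∨ Undistorted g ∨ VirtualHom g) → BassProperty G) := by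
  intro G _
  refine ⟨fun _ h => traceVanishes_of_detected h, ?_, ?_, ?_,
    fun _ _ he => exists_finite_support he, fun hF hd => bassProperty_of_local hF hd⟩
  · intro Ω _ _ d ρ g a ha hn
    exact traceVanishes_of_lipschitzHom (lipschitzHom_of_eigenvalue ρ ha hn)
  · intro k E _ _ _ d ρ g a ha ht
    exact traceVanishes_of_lipschitzHom (lipschitzHom_of_transcendental ρ ha ht)
  · intro K _ p hp hK d ρ hρ
    haveI := hK
    haveI := Fact.mk hp
    have hd : ∀ g : G, ¬ IsOfFinOrder g → LipschitzHom g :=
      fun g hg => lipschitzHom_of_charP p ρ hρ hg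
    refine ⟨fun g hg => traceVanishes_of_lipschitzHom (hd g hg), fun htf => ?_,
      fun hF => bassProperty_of_local hF fun g hg => Or.inl (hd g hg)⟩
    refine bassProperty_of_local (fun S => ⟨{1}, fun h _ hh => ⟨1, Finset.mem_singleton_self 1, ?_⟩⟩)
      fun g hg => Or.inl (hd g hg)
    rw [htf h hh]

end Vale.Agent.Results.P184.TraceVanishing
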